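import Vale.Agent.Lib.PolyTime.Lists3
import Vale.Agent.Lib.PolyTime.Bitwise
import Vale.Agent.Lib.PCP.CL.Main
import Vale.Agent.Lib.PCP.PT.Fin
import Vale.Agent.P333.Model

/-!
The source problem: systems of equations `X a * X b + X c = β` over a field of characteristic two,
with separate tables for the three positions.
-/

namespace Vale.Agent.P318.Src

open Vale.Agent.Lib.PCP Vale.Agent.Lib.PolyTime Vale.Agent.P333

/-! ### The system of a formula -/

/-- The variables of a formula. -/
def varsC (C : CNF3) : List ℕ := C.flatMap fun c => [c.1.1, c.2.1.1, c.2.2.1]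

/-- The number of a variable. -/
def idxC (C : CNF3) (v : ℕ) : ℕ := ((varsC C).takeWhile fun w => !decide (w = v)).length

/-- The index of the indicator of `literal is false`. -/
def litC (C : CNF3) (l : Lit) : ℕ := if l.2 then 2 * idxC C l.1 + 3 else 2 * idxC C l.1 + 2

/-- The equations of a clause, `j` is its number. -/
def clC (C : CNF3) (j : ℕ) (c : Lit × Lit × Lit) : List Eqn :=
  [((litC C c.1, litC C c.2.1, 6 * C.length + 2 + j), false),
    ((6 * C.length + 2 + j, litC C c.2.2, 0), false)]

/-- All indices are smaller than this number. -/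
def sizeC (C : CNF3) : ℕ := 7 * C.length + 2

/-- Equations for the constants: index `0` is zero, index `1` is one. -/
def baseC : List Eqn :=
  [((1, 1, 0), true), ((0, 0, 0), false), ((1, 0, 0), false), ((0, 1, 0), false),
    ((1, 1, 1), false)]

/-- Equations which force the tables to be equal and boolean. -/
def boolC (n : ℕ) : List Eqn :=
  (List.range n).flatMap fun a =>
    [((a + 2, 1, a + 2), false), ((1, a + 2, a + 2), false), ((a + 2, a + 2, a + 2), false)]

/-- Equations for the negations. -/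
def negC (n : ℕ) : List Eqn :=
  (List.range n).map fun i => ((2 * i + 2, 2 * i + 2, 2 * i + 3), true)

/-- The equations of the clauses. -/
def clausesC (C : CNF3) : List Eqn := C.zipIdx.flatMap fun p => clC C p.2 p.1

/-- The system of a formula. -/
def sysC (C : CNF3) : List Eqn :=
  baseC ++ (boolC (7 * C.length) ++ (negC (3 * C.length) ++ clausesC C))

theorem mem_sysC_bool (C : CNF3) {a : ℕ} (ha : a < sizeC C) :
    ∀ e ∈ [((a, 1, a), false), ((1, a, a), false), ((a, a, a), false)], e ∈ sysC C := by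
  unfold sizeC at ha
  intro e he
  match a, ha with
  | 0, _ =>
    refine List.mem_append_left _ ?_
    simp only [List.mem_cons, List.not_mem_nil, or_false] at he
    rcases he with rfl | rfl | rfl <;> simp [baseC]
  | 1, _ =>
    refine List.mem_append_left _ ?_
    simp only [List.mem_cons, List.not_mem_nil, or_false] at he
    rcases he with rfl | rfl | rfl <;> simp [baseC]
  | a + 2, ha =>
    exact List.mem_append_right _ (List.mem_append_left _
      (List.mem_flatMap.2 ⟨a, List.mem_range.2 (by omega), he⟩))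

/-- The tables `f₁, f₂, f₃` satisfy the equation. -/
def EqOK {K : Type*} [Field K] (f₁ f₂ f₃ : ℕ → K) (e : Eqn) : Prop :=
  f₁ e.1.1 * f₂ e.1.2.1 + f₃ e.1.2.2 = if e.2 then 1 else 0

/-! ### Indices -/

theorem idxC_lt (C : CNF3) {c : Lit × Lit × Lit} (hc : c ∈ C) :
    idxC C c.1.1 < 3 * C.length ∧ idxC C c.2.1.1 < 3 * C.length ∧
      idxC C c.2.2.1 < 3 * C.length := by
  have hl : (varsC C).length = 3 * C.length := by
    unfold varsC
    rw [List.length_flatMap]
    simp [List.map_const', mul_comm]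
  have key : ∀ v ∈ varsC C, idxC C v < 3 * C.length := by
    intro v hv
    rw [← hl, idxC]
    refine lt_of_le_of_ne (List.takeWhile_prefix _).length_le fun h => ?_
    have h2 := (List.takeWhile_prefix (l := varsC C) fun w => !decide (w = v)).eq_of_length h
    rw [List.takeWhile_eq_self_iff] at h2
    simpa using h2 v hv
  refine ⟨key _ ?_, key _ ?_, key _ ?_⟩ <;>
    exact List.mem_flatMap.2 ⟨c, hc, by simp⟩

theorem litC_lt (C : CNF3) {l : Lit} (h : idxC C l.1 < 3 * C.length) :
    litC C l < 6 * C.length + 2 := by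
  unfold litC
  split_ifs <;> omega

theorem getD_takeWhile (v : ℕ) : ∀ l : List ℕ, v ∈ l →
    l.getD (l.takeWhile fun w => !decide (w = v)).length 0 = v
  | [], h => absurd h List.not_mem_nil
  | a :: l, h => by
    by_cases ha : a = v
    · subst ha
      simp
    · have h1 : v ∈ l := by
        rcases List.mem_cons.1 h with h | h
        · exact absurd h.symm ha
        · exact h
      have h2 := getD_takeWhile v l h1
      rw [List.takeWhile_cons_of_pos (by simp [ha]), List.length_cons, List.getD_cons_succ]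
      exact h2

theorem getD_idxC (C : CNF3) {v : ℕ} (hv : v ∈ varsC C) : (varsC C).getD (idxC C v) 0 = v :=
  getD_takeWhile v _ hv

theorem mem_varsC (C : CNF3) {c : Lit × Lit × Lit} (hc : c ∈ C) :
    c.1.1 ∈ varsC C ∧ c.2.1.1 ∈ varsC C ∧ c.2.2.1 ∈ varsC C := by
  refine ⟨?_, ?_, ?_⟩ <;> exact List.mem_flatMap.2 ⟨c, hc, by simp⟩

theorem zipIdx_mem_lt {α : Type*} {l : List α} {p : α × ℕ} (h : p ∈ l.zipIdx) :
    p.2 < l.length ∧ p.1 ∈ l := by
  obtain ⟨a, i⟩ := p
  have h1 := List.mem_zipIdx h
  simp only [Nat.zero_add, Nat.sub_zero, Nat.zero_le, true_and] at h1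
  exact ⟨h1.1, by rw [h1.2]; exact List.getElem_mem _⟩

/-- All indices are small. -/
theorem sysC_lt (C : CNF3) {e : Eqn} (he : e ∈ sysC C) :
    e.1.1 < sizeC C ∧ e.1.2.1 < sizeC C ∧ e.1.2.2 < sizeC C := by
  unfold sysC at he
  rcases List.mem_append.1 he with he | he
  · simp only [baseC, List.mem_cons, List.not_mem_nil, or_false] at he
    unfold sizeC
    rcases he with rfl | rfl | rfl | rfl | rfl <;> simp
  rcases List.mem_append.1 he with he | he
  · simp only [boolC, List.mem_flatMap, List.mem_range] at he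
    obtain ⟨a, ha, he⟩ := he
    simp only [List.mem_cons, List.not_mem_nil, or_false] at he
    unfold sizeC
    rcases he with rfl | rfl | rfl <;> simp only <;> omega
  rcases List.mem_append.1 he with he | he
  · simp only [negC, List.mem_map, List.mem_range] at he
    obtain ⟨i, hi, rfl⟩ := he
    unfold sizeC
    simp only
    omega
  · simp only [clausesC, List.mem_flatMap] at he
    obtain ⟨p, hp, he⟩ := he
    obtain ⟨h1, h2⟩ := zipIdx_mem_lt hp
    obtain ⟨k1, k2, k3⟩ := idxC_lt C h2
    have m1 := litC_lt C k1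
    have m2 := litC_lt C k2
    have m3 := litC_lt C k3
    simp only [clC, List.mem_cons, List.not_mem_nil, or_false] at he
    unfold sizeC
    rcases he with rfl | rfl <;> simp only <;> omega

/-! ### The triples are distinct -/

theorem nodup_boolC (n : ℕ) : ((boolC n).map Prod.fst).Nodup := by
  unfold boolC
  rw [List.map_flatMap, List.nodup_flatMap]
  refine ⟨fun a _ => by simp, ?_⟩
  refine (List.nodup_range (n := n)).imp ?_
  intro a b hab
  simp only [Function.onFun, List.disjoint_left, List.map_cons, List.map_nil, List.mem_cons,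
    List.not_mem_nil, or_false]
  rintro t (rfl | rfl | rfl) <;> simp only [Prod.mk.injEq, not_or] <;> omega

theorem nodup_negC (n : ℕ) : ((negC n).map Prod.fst).Nodup := by
  unfold negC
  rw [List.map_map]
  refine (List.nodup_range (n := n)).map ?_
  intro a b hab
  simp only [Function.comp, Prod.mk.injEq] at hab
  omega

theorem nodup_clausesC (C : CNF3) : ((clausesC C).map Prod.fst).Nodup := by
  unfold clausesC
  rw [List.map_flatMap, List.nodup_flatMap]
  constructor
  · intro p hp
    obtain ⟨h1, h2⟩ := zipIdx_mem_lt hp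
    obtain ⟨k1, k2, k3⟩ := idxC_lt C h2
    have m1 := litC_lt C k1
    simp only [clC, List.map_cons, List.map_nil, List.nodup_cons, List.mem_cons, Prod.mk.injEq,
      List.not_mem_nil, or_false, not_false_eq_true, List.nodup_nil, and_true]
    omega
  · have h0 : C.zipIdx.Pairwise fun p q => p.2 ≠ q.2 := by
      rw [← List.pairwise_map (f := Prod.snd) (R := fun a b => a ≠ b), List.zipIdx_map_snd]
      exact List.nodup_range'
    refine h0.imp_of_mem fun {p q} hp hq hpq => ?_
    obtain ⟨-, p2⟩ := zipIdx_mem_lt hp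
    obtain ⟨-, q2⟩ := zipIdx_mem_lt hq
    obtain ⟨k1, -, -⟩ := idxC_lt C p2
    obtain ⟨l1, -, -⟩ := idxC_lt C q2
    have m1 := litC_lt C k1
    have m2 := litC_lt C l1
    simp only [Function.onFun, List.disjoint_left, clC, List.map_cons, List.map_nil,
      List.mem_cons, List.not_mem_nil, or_false]
    rintro t (rfl | rfl) <;> simp only [Prod.mk.injEq, not_or] <;> omega

/-- The triples of the equations of the system are distinct. -/
theorem sysC_nodup (C : CNF3) : ((sysC C).map Prod.fst).Nodup := by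
  have hbool : ∀ n, ∀ t ∈ (boolC n).map Prod.fst, ∃ a, t = (a + 2, 1, a + 2) ∨
      t = (1, a + 2, a + 2) ∨ t = (a + 2, a + 2, a + 2) := by
    intro n t ht
    simp only [boolC, List.mem_map, List.mem_flatMap, List.mem_range] at ht
    obtain ⟨e, ⟨a, -, he⟩, rfl⟩ := ht
    simp only [List.mem_cons, List.not_mem_nil, or_false] at he
    refine ⟨a, ?_⟩
    rcases he with rfl | rfl | rfl <;> simp
  have hneg : ∀ t ∈ (negC (3 * C.length)).map Prod.fst, ∃ i < 3 * C.length,
      t = (2 * i + 2, 2 * i + 2, 2 * i + 3) := by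
    intro t ht
    simp only [negC, List.mem_map, List.mem_range] at ht
    obtain ⟨e, ⟨i, hi, rfl⟩, rfl⟩ := ht
    exact ⟨i, hi, rfl⟩
  have hcl : ∀ t ∈ (clausesC C).map Prod.fst, ∃ u v w, 2 ≤ u ∧ u < 6 * C.length + 2 ∧ 2 ≤ v ∧
      6 * C.length + 2 ≤ w ∧ (t = (u, v, w) ∨ t = (w, v, 0)) := by
    intro t ht
    simp only [clausesC, List.mem_map, List.mem_flatMap] at ht
    obtain ⟨e, ⟨p, hp, he⟩, rfl⟩ := ht
    obtain ⟨h1, h2⟩ := zipIdx_mem_lt hp
    obtain ⟨k1, k2, k3⟩ := idxC_lt C h2
    have m1 := litC_lt C k1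
    have g : ∀ l : Lit, 2 ≤ litC C l := fun l => by unfold litC; split_ifs <;> omega
    simp only [clC, List.mem_cons, List.not_mem_nil, or_false] at he
    rcases he with rfl | rfl
    · exact ⟨_, _, _, g _, m1, g _, by omega, Or.inl rfl⟩
    · exact ⟨_, _, _, g _, m1, g p.1.2.2, by omega, Or.inr rfl⟩
  unfold sysC
  rw [List.map_append, List.map_append, List.map_append]
  refine List.nodup_append'.2 ⟨by simp [baseC], List.nodup_append'.2 ⟨nodup_boolC _,
    List.nodup_append'.2 ⟨nodup_negC _, nodup_clausesC C, ?_⟩, ?_⟩, ?_⟩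
  · rw [List.disjoint_left]
    intro t h1 h2
    obtain ⟨i, hi, rfl⟩ := hneg t h1
    obtain ⟨u, v, w, a1, a2, a3, a4, h | h⟩ := hcl _ h2 <;>
      simp only [Prod.mk.injEq] at h <;> omega
  · rw [List.disjoint_left]
    intro t h1 h2
    obtain ⟨a, ha⟩ := hbool _ t h1
    rcases List.mem_append.1 h2 with h2 | h2
    · obtain ⟨i, hi, rfl⟩ := hneg t h2
      simp only [Prod.mk.injEq] at ha
      omega
    · obtain ⟨u, v, w, a1, a2, a3, a4, rfl | rfl⟩ := hcl _ h2 <;>
        simp only [Prod.mk.injEq] at ha <;> omega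
  · rw [List.disjoint_left]
    intro t h1 h2
    have hb : t.1 ≤ 1 ∧ t.2.1 ≤ 1 ∧ t.2.2 ≤ 1 := by
      simp only [baseC, List.map_cons, List.map_nil, List.mem_cons, List.not_mem_nil,
        or_false] at h1
      rcases h1 with rfl | rfl | rfl | rfl | rfl <;> simp
    rcases List.mem_append.1 h2 with h2 | h2
    · obtain ⟨a, rfl | rfl | rfl⟩ := hbool _ t h2 <;> simp only at hb <;> omega
    rcases List.mem_append.1 h2 with h2 | h2
    · obtain ⟨i, hi, rfl⟩ := hneg t h2
      simp only at hb
      omega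
    · obtain ⟨u, v, w, a1, a2, a3, a4, rfl | rfl⟩ := hcl _ h2 <;> simp only at hb <;> omega

/-! ### Soundness -/

section field

variable {K : Type*} [Field K] [CharP K 2]

theorem sysC_sound (C : CNF3) (f₁ f₂ f₃ : ℕ → K) (h : ∀ e ∈ sysC C, EqOK f₁ f₂ f₃ e) :
    C.Sat := by
  classical
  have two : (2 : K) = 0 := by exact_mod_cast CharP.cast_eq_zero K 2
  have neg : ∀ x : K, -x = x := fun x => by
    have : x + x = 0 := by rw [← two_mul, two, zero_mul]
    exact (eq_neg_of_add_eq_zero_left this).symm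
  have eq_of_add : ∀ {x y : K}, x + y = 0 → x = y := fun {x y} hxy => by
    rw [eq_neg_of_add_eq_zero_left hxy, neg]
  have hb : ∀ e ∈ baseC, EqOK f₁ f₂ f₃ e := fun e he => h e (List.mem_append_left _ he)
  have h1 : f₁ 1 * f₂ 1 + f₃ 0 = 1 := by
    have := hb ((1, 1, 0), true) (by simp [baseC])
    simpa [EqOK] using this
  have h2 : f₁ 0 * f₂ 0 + f₃ 0 = 0 := by
    have := hb ((0, 0, 0), false) (by simp [baseC])
    simpa [EqOK] using this
  have h3 : f₁ 1 * f₂ 0 + f₃ 0 = 0 := by
    have := hb ((1, 0, 0), false) (by simp [baseC])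
    simpa [EqOK] using this
  have h4 : f₁ 0 * f₂ 1 + f₃ 0 = 0 := by
    have := hb ((0, 1, 0), false) (by simp [baseC])
    simpa [EqOK] using this
  have h5 : f₁ 1 * f₂ 1 + f₃ 1 = 0 := by
    have := hb ((1, 1, 1), false) (by simp [baseC])
    simpa [EqOK] using this
  have hz : f₃ 0 = 0 := by
    by_contra ht
    have e2 := eq_of_add h2
    have e3 := eq_of_add h3
    have e4 := eq_of_add h4
    have hs : f₂ 0 ≠ 0 := by
      intro hs; rw [hs, mul_zero] at e2; exact ht e2.symm
    have hr : f₁ 0 ≠ 0 := by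
      intro hs; rw [hs, zero_mul] at e2; exact ht e2.symm
    have p1 : f₁ 1 = f₁ 0 := mul_right_cancel₀ hs (e3.trans e2.symm)
    have p2 : f₂ 1 = f₂ 0 := mul_left_cancel₀ hr (e4.trans e2.symm)
    rw [p1, p2, h2] at h1
    exact zero_ne_one h1
  rw [hz, add_zero] at h1
  have ho : f₃ 1 = 1 := by rw [← eq_of_add h5, h1]
  -- the tables
  have hbool : ∀ a < sizeC C, f₁ a = f₁ 1 * f₃ a ∧ f₂ a = f₂ 1 * f₃ a ∧
      (f₃ a = 0 ∨ f₃ a = 1) := by
    intro a ha
    have hm : ∀ e ∈ [((a, 1, a), false), ((1, a, a), false), ((a, a, a), false)],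
        EqOK f₁ f₂ f₃ e := fun e he => h e (mem_sysC_bool C ha e he)
    have q1 : f₁ a * f₂ 1 + f₃ a = 0 := by
      have := hm ((a, 1, a), false) (by simp)
      simpa [EqOK] using this
    have q2 : f₁ 1 * f₂ a + f₃ a = 0 := by
      have := hm ((1, a, a), false) (by simp)
      simpa [EqOK] using this
    have q3 : f₁ a * f₂ a + f₃ a = 0 := by
      have := hm ((a, a, a), false) (by simp)
      simpa [EqOK] using this
    have r1 : f₁ a = f₁ 1 * f₃ a := by
      rw [← eq_of_add q1]
      calc f₁ a = (f₁ 1 * f₂ 1) * f₁ a := by rw [h1, one_mul]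
        _ = _ := by ring
    have r2 : f₂ a = f₂ 1 * f₃ a := by
      rw [← eq_of_add q2]
      calc f₂ a = (f₁ 1 * f₂ 1) * f₂ a := by rw [h1, one_mul]
        _ = _ := by ring
    refine ⟨r1, r2, ?_⟩
    have r3 := eq_of_add q3
    rw [r1, r2] at r3
    have r4 : f₃ a * (f₃ a - 1) = 0 := by
      have : f₃ a * f₃ a = f₃ a := by
        calc f₃ a * f₃ a = (f₁ 1 * f₂ 1) * (f₃ a * f₃ a) := by rw [h1, one_mul]
          _ = f₁ 1 * f₃ a * (f₂ 1 * f₃ a) := by ring
          _ = f₃ a := r3
      rw [mul_sub, this, mul_one, sub_self]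
    rcases mul_eq_zero.1 r4 with r | r
    · exact Or.inl r
    · exact Or.inr (sub_eq_zero.1 r)
  have hprod : ∀ a < sizeC C, ∀ b < sizeC C, f₁ a * f₂ b = f₃ a * f₃ b := by
    intro a ha b hb'
    rw [(hbool a ha).1, (hbool b hb').2.1]
    calc f₁ 1 * f₃ a * (f₂ 1 * f₃ b) = (f₁ 1 * f₂ 1) * (f₃ a * f₃ b) := by ring
      _ = _ := by rw [h1, one_mul]
  have heq : ∀ e ∈ sysC C, f₃ e.1.1 * f₃ e.1.2.1 + f₃ e.1.2.2 = if e.2 then 1 else 0 := by
    intro e he
    obtain ⟨l1, l2, -⟩ := sysC_lt C he
    rw [← hprod _ l1 _ l2]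
    exact h e he
  -- the assignment
  refine ⟨fun v => decide (f₃ (2 * idxC C v + 2) = 1), fun c hc => ?_⟩
  obtain ⟨i, hi⟩ : ∃ i, (c, i) ∈ C.zipIdx := by
    obtain ⟨i, hi, rfl⟩ := List.getElem_of_mem hc
    exact ⟨i, by rw [List.mem_zipIdx_iff_getElem?]; simp [hi]⟩
  obtain ⟨hi1, -⟩ := zipIdx_mem_lt hi
  have hc1 : ∀ e ∈ clC C i c, e ∈ sysC C := fun e he =>
    List.mem_append_right _ (List.mem_append_right _ (List.mem_append_right _
      (List.mem_flatMap.2 ⟨(c, i), hi, he⟩)))
  have s1 := heq _ (hc1 ((litC C c.1, litC C c.2.1, 6 * C.length + 2 + i), false) (by simp [clC]))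
  have s2 := heq _ (hc1 ((6 * C.length + 2 + i, litC C c.2.2, 0), false) (by simp [clC]))
  simp only [Bool.false_eq_true, if_false, hz, add_zero] at s1 s2
  obtain ⟨k1, k2, k3⟩ := idxC_lt C hc
  -- values of literals
  have hlit : ∀ l : Lit, idxC C l.1 < 3 * C.length →
      Lit.eval (fun v => decide (f₃ (2 * idxC C v + 2) = 1)) l = false → f₃ (litC C l) = 1 := by
    intro l hl hev
    have hn : f₃ (2 * idxC C l.1 + 2) * f₃ (2 * idxC C l.1 + 2) + f₃ (2 * idxC C l.1 + 3) = 1 := by
      have := heq ((2 * idxC C l.1 + 2, 2 * idxC C l.1 + 2, 2 * idxC C l.1 + 3), true)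
        (List.mem_append_right _ (List.mem_append_right _ (List.mem_append_left _
          (List.mem_map.2 ⟨idxC C l.1, List.mem_range.2 hl, rfl⟩))))
      simpa using this
    have hlt : 2 * idxC C l.1 + 2 < sizeC C := by unfold sizeC; omega
    rcases (hbool _ hlt).2.2 with h0 | h0
    · -- the variable is false
      have : l.2 = true := by
        by_contra hf
        rw [Bool.not_eq_true] at hf
        simp [Lit.eval, h0, hf] at hev
      rw [litC, this, if_pos rfl]
      rw [h0] at hn
      simpa using hn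
    · have : l.2 = false := by
        by_contra hf
        rw [Bool.not_eq_false] at hf
        simp [Lit.eval, h0, hf] at hev
      rw [litC, this]
      simpa using h0
  by_contra hcon
  rw [Bool.not_eq_true, Bool.or_eq_false_iff, Bool.or_eq_false_iff] at hcon
  have t1 := hlit _ k1 hcon.1.1
  have t2 := hlit _ k2 hcon.1.2
  have t3 := hlit _ k3 hcon.2
  rw [t1, t2, one_mul] at s1
  rw [t3, mul_one] at s2
  rw [s2, add_zero] at s1
  exact one_ne_zero s1

end field

/-! ### Completeness -/

/-- The boolean solution. -/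
def solC (C : CNF3) (τ : ℕ → Bool) (a : ℕ) : Bool :=
  if a = 0 then false else if a = 1 then true else
    if a < 6 * C.length + 2 then
      if a % 2 = 0 then τ ((varsC C).getD ((a - 2) / 2) 0) else !τ ((varsC C).getD ((a - 2) / 2) 0)
    else
      !Lit.eval τ (C.getD (a - (6 * C.length + 2)) ((0, true), (0, true), (0, true))).1 &&
        !Lit.eval τ (C.getD (a - (6 * C.length + 2)) ((0, true), (0, true), (0, true))).2.1

theorem solC_lit (C : CNF3) (τ : ℕ → Bool) {l : Lit} (hl : l.1 ∈ varsC C)
    (h : idxC C l.1 < 3 * C.length) : solC C τ (litC C l) = !Lit.eval τ l := by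
  have hg := getD_idxC C hl
  unfold litC
  obtain ⟨v, s⟩ := l
  simp only at hg h ⊢
  cases s
  · simp only [Bool.false_eq_true, if_false]
    have e1 : 2 * idxC C v + 2 ≠ 0 := by omega
    have e2 : 2 * idxC C v + 2 ≠ 1 := by omega
    have e3 : 2 * idxC C v + 2 < 6 * C.length + 2 := by omega
    have e4 : (2 * idxC C v + 2) % 2 = 0 := by omega
    have e5 : (2 * idxC C v + 2 - 2) / 2 = idxC C v := by omega
    rw [solC, if_neg e1, if_neg e2, if_pos e3, if_pos e4, e5, hg]
    cases hv : τ v <;> simp [Lit.eval, hv]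
  · simp only [if_true]
    have e1 : 2 * idxC C v + 3 ≠ 0 := by omega
    have e2 : 2 * idxC C v + 3 ≠ 1 := by omega
    have e3 : 2 * idxC C v + 3 < 6 * C.length + 2 := by omega
    have e4 : ¬ (2 * idxC C v + 3) % 2 = 0 := by omega
    have e5 : (2 * idxC C v + 3 - 2) / 2 = idxC C v := by omega
    rw [solC, if_neg e1, if_neg e2, if_pos e3, if_neg e4, e5, hg]
    cases hv : τ v <;> simp [Lit.eval, hv]

theorem sysC_complete (C : CNF3) (h : C.Sat) :
    ∃ g : ℕ → Bool, ∀ e ∈ sysC C, ((g e.1.1 && g e.1.2.1) ^^ g e.1.2.2) = e.2 := by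
  obtain ⟨τ, hτ⟩ := h
  refine ⟨solC C τ, fun e he => ?_⟩
  have g0 : solC C τ 0 = false := rfl
  have g1 : solC C τ 1 = true := rfl
  unfold sysC at he
  rcases List.mem_append.1 he with he | he
  · simp only [baseC, List.mem_cons, List.not_mem_nil, or_false] at he
    rcases he with rfl | rfl | rfl | rfl | rfl <;> simp [g0, g1]
  rcases List.mem_append.1 he with he | he
  · simp only [boolC, List.mem_flatMap, List.mem_range] at he
    obtain ⟨a, ha, he⟩ := he
    simp only [List.mem_cons, List.not_mem_nil, or_false] at he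
    rcases he with rfl | rfl | rfl <;> simp [g1]
  rcases List.mem_append.1 he with he | he
  · simp only [negC, List.mem_map, List.mem_range] at he
    obtain ⟨i, hi, rfl⟩ := he
    have a1 : solC C τ (2 * i + 2) = τ ((varsC C).getD i 0) := by
      rw [solC, if_neg (by omega), if_neg (by omega), if_pos (by omega), if_pos (by omega)]
      congr 2
      omega
    have a2 : solC C τ (2 * i + 3) = !τ ((varsC C).getD i 0) := by
      rw [solC, if_neg (by omega), if_neg (by omega), if_pos (by omega), if_neg (by omega)]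
      congr 3
      omega
    simp [a1, a2]
  · simp only [clausesC, List.mem_flatMap] at he
    obtain ⟨⟨c, i⟩, hp, he⟩ := he
    obtain ⟨h1, h2⟩ := zipIdx_mem_lt hp
    simp only at h1 h2 he
    have hci : C.getD i ((0, true), (0, true), (0, true)) = c := by
      rw [List.mem_zipIdx_iff_getElem?] at hp
      simp only at hp
      rw [List.getD_eq_getElem?_getD, hp]
      rfl
    obtain ⟨k1, k2, k3⟩ := idxC_lt C h2
    obtain ⟨v1, v2, v3⟩ := mem_varsC C h2
    have b1 := solC_lit C τ v1 k1
    have b2 := solC_lit C τ v2 k2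
    have b3 := solC_lit C τ v3 k3
    have b4 : solC C τ (6 * C.length + 2 + i) = (!Lit.eval τ c.1 && !Lit.eval τ c.2.1) := by
      rw [solC, if_neg (by omega), if_neg (by omega), if_neg (by omega),
        Nat.add_sub_cancel_left, hci]
    have hc := hτ c h2
    simp only [clC, List.mem_cons, List.not_mem_nil, or_false] at he
    rcases he with rfl | rfl
    · simp only [b1, b2, b4]
      cases Lit.eval τ c.1 <;> cases Lit.eval τ c.2.1 <;> rfl
    · simp only [b3, b4, g0]
      revert hc
      cases Lit.eval τ c.1 <;> cases Lit.eval τ c.2.1 <;> cases Lit.eval τ c.2.2 <;> simp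

/-- The boolean solution over a field. -/
theorem EqOK_of_bool {K : Type*} [Field K] [CharP K 2] (g : ℕ → Bool) {e : Eqn}
    (h : ((g e.1.1 && g e.1.2.1) ^^ g e.1.2.2) = e.2) :
    EqOK (fun a => if g a then (1 : K) else 0) (fun a => if g a then (1 : K) else 0)
      (fun a => if g a then (1 : K) else 0) e := by
  have two : (1 : K) + 1 = 0 := by
    have : (2 : K) = 0 := by exact_mod_cast CharP.cast_eq_zero K 2
    rw [← this]; norm_num
  have key : ∀ a b c : Bool, (if a then (1 : K) else 0) * (if b then (1 : K) else 0) +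
      (if c then (1 : K) else 0) = if ((a && b) ^^ c) = true then 1 else 0 := by
    intro a b c
    cases a <;> cases b <;> cases c <;> simp [two]
  unfold EqOK
  rw [← h]
  exact key _ _ _

/-! ### Polynomial time -/

section PT

variable {A : Set Word} {α : Type*} [Enc α]

theorem PT_varsC {C : α → CNF3} (hC : PT A C) : PT A (fun x => varsC (C x)) := by
  unfold varsC
  exact PT.flatMap (f := fun _ (c : Lit × Lit × Lit) => [c.1.1, c.2.1.1, c.2.2.1]) hC
    ((PT.snd'.fst.fst).cons ((PT.snd'.snd.fst.fst).cons ((PT.snd'.snd.snd.fst).cons PT.nil)))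

theorem PT_idxC {C : α → CNF3} {v : α → ℕ} (hC : PT A C) (hv : PT A v) :
    PT A (fun x => idxC (C x) (v x)) := by
  unfold idxC
  exact (PT.takeWhile (f := fun x w => !decide (w = v x)) (PT_varsC hC)
    (PT.eqNat PT.snd' (hv.comp PT.fst')).not).length

theorem PT_litC {C : α → CNF3} {l : α → Lit} (hC : PT A C) (hl : PT A l) :
    PT A (fun x => litC (C x) (l x)) := by
  unfold litC
  have h := (PT.const 2).mul (PT_idxC hC hl.fst)
  exact (PT.cond hl.snd (h.add (PT.const 3)) (h.add (PT.const 2))).congr fun x => by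
    cases (l x).2 <;> rfl

theorem PT_sizeC {C : α → CNF3} (hC : PT A C) : PT A (fun x => sizeC (C x)) :=
  ((PT.const 7).mul hC.length).add (PT.const 2)

theorem PBd_sizeC {C : α → CNF3} (hC : PT A C) : PBd (fun x => sizeC (C x)) :=
  ((PBd.const 7).mul (PBd.length hC)).add (PBd.const 2)

theorem PT_eqn {a b c : α → ℕ} {t : α → Bool} (ha : PT A a) (hb : PT A b) (hc : PT A c)
    (ht : PT A t) : PT A (fun x => (((a x, b x, c x), t x) : Eqn)) :=
  (ha.pair (hb.pair hc)).pair ht

theorem PT_clC {C : α → CNF3} {j : α → ℕ} {c : α → Lit × Lit × Lit} (hC : PT A C) (hj : PT A j)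
    (hc : PT A c) : PT A (fun x => clC (C x) (j x) (c x)) := by
  unfold clC
  have h := (((PT.const 6).mul hC.length).add (PT.const 2)).add hj
  exact (PT_eqn (PT_litC hC hc.fst) (PT_litC hC hc.snd.fst) h (PT.const false)).cons
    ((PT_eqn h (PT_litC hC hc.snd.snd) (PT.const 0) (PT.const false)).cons PT.nil)

theorem PT_sysC {C : α → CNF3} (hC : PT A C) : PT A (fun x => sysC (C x)) := by
  unfold sysC
  refine (PT.const baseC).append (PT.append ?_ (PT.append ?_ ?_))
  · unfold boolC
    refine PT.flatMap (f := fun _ a => [((a + 2, 1, a + 2), false), ((1, a + 2, a + 2), false),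
      ((a + 2, a + 2, a + 2), false)])
      (PT.range ((PT.const 7).mul hC.length) ((PBd.const 7).mul (PBd.length hC))) ?_
    have h := (PT.snd' (A := A) (α := α) (β := ℕ)).add (PT.const 2)
    exact (PT_eqn h (PT.const 1) h (PT.const false)).cons
      ((PT_eqn (PT.const 1) h h (PT.const false)).cons
        ((PT_eqn h h h (PT.const false)).cons PT.nil))
  · unfold negC
    refine PT.map (f := fun _ i => ((2 * i + 2, 2 * i + 2, 2 * i + 3), true))
      (PT.range ((PT.const 3).mul hC.length) ((PBd.const 3).mul (PBd.length hC))) ?_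
    have h := (PT.const (A := A) (α := α × ℕ) 2).mul PT.snd'
    exact PT_eqn (h.add (PT.const 2)) (h.add (PT.const 2)) (h.add (PT.const 3)) (PT.const true)
  · unfold clausesC
    exact PT.flatMap (f := fun x p => clC (C x) p.2 p.1) (PT.zipIdx hC)
      (PT_clC (hC.comp PT.fst') PT.snd'.snd PT.snd'.fst)

end PT

end Vale.Agent.P318.Src
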