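import Vale.Agent.P318.H648.Source
import Vale.Agent.P333.NPDefs
import Vale.Agent.P333.Bdl.B1

/-!
Every language in NP reduces to the source problem.
-/

namespace Vale.Agent.P318.Src

open Vale.Agent.Lib.PCP Vale.Agent.Lib.PolyTime Vale.Agent.P333

/-! ### From languages in NP -/

theorem pairW_eq (u v : List Bool) : pairW u v = pr u v := by
  unfold pairW
  induction u with
  | nil => rfl
  | cons b u ih => rw [List.flatMap_cons, pr, ← ih]; rfl

/-- Every language in NP reduces to the satisfiability of 3-CNF formulas. -/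
theorem np_cnf {L : Set (List Bool)} (hL : L ∈ classNP) :
    ∃ Φ : List Bool → CNF3, PT ∅ (fun r : Raw => Φ r.w) ∧ ∀ x, x ∈ L ↔ (Φ x).Sat := by
  obtain ⟨V, p, ⟨MV⟩, hV⟩ := hL
  obtain ⟨W, hW, hW'⟩ := exists_FP_of_tm2 (A := ∅) MV
  have hW2 : ∀ x y, W (pr x y) = [V (x, y)] := by
    intro x y
    rw [← hW' (x, y), pairW_eq]
  obtain ⟨F, hF, hF'⟩ := CL.cook_levin (L := L) hW p fun x => by
    rw [hV x]
    refine exists_congr fun y => and_congr_right fun _ => ?_
    rw [hW2]
    simp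
  exact ⟨F, ⟨_, hF, fun r => rfl⟩, hF'⟩

/-- **The source problem.** Every language in NP reduces to the solvability of systems
`X a * X b + X c = β`: with a boolean solution if the word is in the language, without solutions
in any field of characteristic two, even with different tables at the three positions, if it is
not. The triples of indices of the equations are distinct. -/
theorem np_sys {L : Set (List Bool)} (hL : L ∈ classNP) :
    ∃ Φ : List Bool → CNF3, PT ∅ (fun r : Raw => Φ r.w) ∧ PT ∅ (fun r : Raw => sysC (Φ r.w)) ∧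
      ∀ x, (∀ e ∈ sysC (Φ x), e.1.1 < sizeC (Φ x) ∧ e.1.2.1 < sizeC (Φ x) ∧
          e.1.2.2 < sizeC (Φ x)) ∧
        ((sysC (Φ x)).map Prod.fst).Nodup ∧
        (x ∈ L → ∃ g : ℕ → Bool, ∀ e ∈ sysC (Φ x),
          ((g e.1.1 && g e.1.2.1) ^^ g e.1.2.2) = e.2) ∧
        (x ∉ L → ∀ (K : Type) [Field K] [CharP K 2] (f₁ f₂ f₃ : ℕ → K),
          ¬ ∀ e ∈ sysC (Φ x), EqOK f₁ f₂ f₃ e) := by
  obtain ⟨Φ, hΦ, hx⟩ := np_cnf hL
  refine ⟨Φ, hΦ, PT_sysC hΦ, fun x => ⟨fun e he => sysC_lt _ he, sysC_nodup _, fun h => ?_, ?_⟩⟩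
  · exact sysC_complete _ ((hx x).1 h)
  · intro h K _ _ f₁ f₂ f₃ hf
    exact h ((hx x).2 (sysC_sound _ f₁ f₂ f₃ hf))

end Vale.Agent.P318.Src
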